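import Vale.Agent.P011.H867.C2.Q22
import Vale.Agent.P011.H706.C2.Odd
import Vale.Agent.P011.H698.Bd
import Vale.Agent.P011.H73.Sp2

/-!
# The base of the doubling in characteristic two

The elements of norm one of an outer form of degree two which are close to one belong to every set
which contains the norm one elements of the quaternion algebras.
-/

open Module

set_option linter.unusedSectionVars false

namespace Vale.Agent.P011.H867.C2

open Vale.Agent.P011.H738 (Place)
open Vale.Agent.P011.H271 Vale.Agent.P011.H961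
open Vale.Agent.P011.H271.S3 (Ab)
open Vale.Agent.P011.H698 (Sm)
open Vale.Agent.P011.H73
open Vale.Agent.P011.H477.C2 (nf)
open Vale.Agent.P011.H706.C2 (Q2 nr Ani Ram QFrF2 QEltF2 HQ1F2 ram_finite)
open Vale.Agent.P011.W (HasNrd)

section alg

variable {L K' C : Type} [Field L] [Field K'] [StarRing K'] [DivisionRing C] [StarRing C]
  [Algebra L K'] [Algebra L C] [Algebra K' C] [IsScalarTower L K' C]

/-- **The quaternion algebra over the fixed field.** -/
theorem exists_frame2 (hS : SetG L K' C) (hd : finrank K' C = 2 ^ 2) (h2 : (2 : L) = 0) :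
    ∃ (δ β : L) (i j : C), β ≠ 0 ∧ star i = i + 1 ∧ star j = j ∧
      i * i = i + algebraMap L C δ ∧ j * j = algebraMap L C β ∧ j * i = (i + 1) * j ∧ Ani δ β ∧
      ∀ u : C, u * star u = 1 → HasNrd K' 2 u 1 → ∃ p0 p1 p2 p3 : L,
        nf δ p0 p1 + β * nf δ p2 p3 = 1 ∧
        u = algebraMap L C p0 + algebraMap L C p1 * i + algebraMap L C p2 * j +
          algebraMap L C p3 * (i * j) := by
  have i2 := hS.fin
  have i3 := hS.cen
  obtain ⟨s⟩ := Vale.Agent.P011S.exists_split (K := K') (D := C) hd (AlgebraicClosure K')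
  obtain ⟨δ, β, i, j, hβ, hsi, hsj, hii, hjj, hji, hu⟩ := frame2 hS hd h2 s
  have hj0 : j ≠ 0 := by
    rintro rfl
    rw [mul_zero] at hjj
    exact hβ ((map_eq_zero _).mp hjj.symm)
  refine ⟨δ, β, i, j, hβ, hsi, hsj, hii, hjj, hji, ?_, fun u h1 hN => hu u h1 ?_⟩
  · intro x hx
    have h1 := sq_quat h2 hii hjj hji x.re x.imI x.imJ x.imK rfl
    obtain ⟨w, hw⟩ : ∃ w : C, w = algebraMap L C x.re + algebraMap L C x.imI * i +
      algebraMap L C x.imJ * j + algebraMap L C x.imK * (i * j) := ⟨_, rfl⟩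
    have hβ2 : -β = β := by linear_combination (-β) * h2
    have hx' : (x.re ^ 2 + x.re * x.imI + δ * x.imI ^ 2) +
        β * (x.imJ ^ 2 + x.imJ * x.imK + δ * x.imK ^ 2) = 0 := by
      have h3 : nf δ x.re x.imI - β * nf δ x.imJ x.imK = 0 := hx
      simp only [nf] at h3
      linear_combination h3 + (β * (x.imJ ^ 2 + x.imJ * x.imK + δ * x.imK ^ 2)) * h2
    rw [hx', map_zero, add_zero, ← hw] at h1
    have h4 : w = 0 ∨ w = algebraMap L C x.imI := by
      rcases eq_or_ne w 0 with h | h
      · exact Or.inl h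
      · exact Or.inr (mul_right_cancel₀ h h1)
    have h5 : x.re = 0 ∧ x.imI = 0 ∧ x.imJ = 0 ∧ x.imK = 0 := by
      rcases h4 with h4 | h4
      · rw [hw] at h4
        exact indep2 h2 hji hj0 h4
      · have h6 : algebraMap L C (x.re - x.imI) + algebraMap L C x.imI * i +
            algebraMap L C x.imJ * j + algebraMap L C x.imK * (i * j) = 0 := by
          rw [map_sub, ← sub_eq_zero.mpr h4, hw]
          abel
        obtain ⟨g0, g1, g2, g3⟩ := indep2 h2 hji hj0 h6
        rw [g1, sub_zero] at g0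
        exact ⟨g0, g1, g2, g3⟩
    ext
    · exact h5.1
    · exact h5.2.1
    · exact h5.2.2.1
    · exact h5.2.2.2
  · rw [hN, map_one]

end alg

section lin

variable {k V : Type} [Field k] [AddCommGroup V] [Module k V] {N : ℕ}

/-- Linear maps to a field above are continuous. -/
theorem near_linSm (B : Basis (Fin N) k V) {L : Type} [Field L] [Algebra k L] (Λ : V →ₗ[k] L)
    {v : Place k} {w : Place L} (hw : Ab w v) {γ : ℝ} (hγ : 0 < γ) :
    ∃ η : ℝ, 0 < η ∧ ∀ x : V, Sm B v η x → w.abv (Λ x) < γ := by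
  have key : ∀ i : Fin N, ∃ ε : ℝ, 0 < ε ∧ ∀ c : k, v.abv c < ε → w.abv (c • Λ (B i)) < γ := by
    intro i
    have hp : 0 ≤ w.abv (Λ (B i)) := w.abv.nonneg _
    obtain ⟨δ, hδ, h⟩ := hw.small (ε := γ / (w.abv (Λ (B i)) + 1)) (by positivity)
    refine ⟨δ, hδ, fun c hc => ?_⟩
    have h1 := h c hc
    rw [lt_div_iff₀ (by positivity)] at h1
    rw [Algebra.smul_def, map_mul]
    refine lt_of_le_of_lt (mul_le_mul_of_nonneg_left ?_ (w.abv.nonneg _)) h1
    linarith
  choose δ hδ0 hδ using key
  obtain ⟨η, hη, hη'⟩ : ∃ η : ℝ, 0 < η ∧ ∀ i, η ≤ δ i := by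
    rcases isEmpty_or_nonempty (Fin N) with he | hne
    · exact ⟨1, one_pos, fun i => he.elim i⟩
    · exact ⟨Finset.univ.inf' Finset.univ_nonempty δ, (Finset.lt_inf'_iff _).mpr fun i _ => hδ0 i,
        fun i => Finset.inf'_le _ (Finset.mem_univ i)⟩
  refine ⟨η, hη, fun x hx => ?_⟩
  have h1 : Λ x = ∑ i, B.repr x i • Λ (B i) := by
    conv_lhs => rw [← B.sum_repr x]
    rw [map_sum]
    exact Finset.sum_congr rfl fun i _ => map_smul _ _ _
  rw [h1]
  exact Sp.sum_lt w _ _ hγ fun i _ => hδ i _ ((hx i).trans_le (hη' i))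

end lin

section near

variable {k L K' C D : Type} [Field k] [GFF k] [Field L] [GFF L] [Algebra k L] [Field K']
  [StarRing K'] [DivisionRing C] [StarRing C] [Algebra L K'] [Algebra L C] [Algebra K' C]
  [IsScalarTower L K' C] [Ring D] [StarRing D] [Algebra k D]

/-- **The base of the doubling in characteristic two.** -/
theorem near_two2 (h2 : (2 : k) = 0) (hS : SetG L K' C) (hd : finrank K' C = 2 ^ 2) {N : ℕ}
    (B : Basis (Fin N) k D) (jC : C →+* D) (hinj : Function.Injective jC)
    (hst : ∀ x, jC (star x) = star (jC x))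
    (hk : ∀ c : k, jC (algebraMap L C (algebraMap k L c)) = algebraMap k D c) {Q : Set D}
    {T0 : Finset (Place k)} {ε0 : ℝ} (hε0 : 0 < ε0) (hQ : HQ1F2 k B T0 ε0 Q) :
    ∃ (S : Finset (Place k)) (η : ℝ), 0 < η ∧ ∀ x : C, x * star x = 1 → HasNrd K' 2 x 1 →
      (∀ v ∈ S, Sm B v η (jC x - 1)) → jC x ∈ Q := by
  classical
  have h2L : (2 : L) = 0 := by rw [← map_ofNat (algebraMap k L) 2, h2, map_zero]
  obtain ⟨δ, β, i, j, hβ, hsi, hsj, hii, hjj, hji, hA, hu⟩ := exists_frame2 hS hd h2L
  -- the field below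
  let ι : L →ₐ[k] D := { toRingHom := jC.comp (algebraMap L C), commutes' := hk }
  have hι : ∀ l, ι l = jC (algebraMap L C l) := fun l => rfl
  have hιinj : Function.Injective ι.toLinearMap := hinj.comp (algebraMap L C).injective
  have hfD : FiniteDimensional k D := B.finiteDimensional_of_finite
  have hfL : FiniteDimensional k L := FiniteDimensional.of_injective ι.toLinearMap hιinj
  -- linear maps
  let algC : Algebra k C := ((algebraMap L C).comp (algebraMap k L)).toAlgebra' fun c x =>
    Algebra.commutes _ _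
  have tow : IsScalarTower k L C := IsScalarTower.of_algebraMap_eq fun _ => rfl
  let jl : C →ₗ[k] D :=
    { toFun := jC
      map_add' := map_add jC
      map_smul' := fun c x => by
        rw [RingHom.id_apply, Algebra.smul_def, Algebra.smul_def, map_mul]
        exact congrArg (· * jC x) (hk c) }
  obtain ⟨r, hr⟩ := jl.exists_leftInverse_of_injective (LinearMap.ker_eq_bot.mpr hinj)
  have hr' : ∀ x : C, r (jC x) = x := fun x => LinearMap.congr_fun hr x
  obtain ⟨l, hl⟩ := (Algebra.linearMap L C).exists_leftInverse_of_injective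
    (LinearMap.ker_eq_bot.mpr (algebraMap L C).injective)
  have hl' : ∀ c : L, l (algebraMap L C c) = c := fun c => LinearMap.congr_fun hl c
  let st : C →ₗ[L] C :=
    { toFun := fun x => x + star x
      map_add' := fun x y => by
        rw [star_add]
        abel
      map_smul' := fun c x => by
        rw [RingHom.id_apply, hS.star_smulk, smul_add] }
  have hstx : ∀ x : C, st x = x + star x := fun x => rfl
  let Λ : D →ₗ[k] L := ((l.comp st).restrictScalars k).comp r
  have hΛ : ∀ x : C, Λ (jC x) = l (x + star x) := by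
    intro x
    change l (st (r (jC x))) = _
    rw [hr', hstx]
  -- the places
  have hfin : {ω : Place L | Ram δ β ω}.Finite := ram_finite h2L hA
  have hbel : ∀ ω : Place L, ∃ v : Place k, Ab ω v := fun ω => Hey.H63.exists_below ω
  choose vb hvb using hbel
  choose η hη hη' using fun ω : Place L => near_linSm B Λ (hvb ω) one_pos
  obtain ⟨R, hR⟩ : ∃ R : Finset (Place L), ∀ ω, ω ∈ R ↔ Ram δ β ω :=
    ⟨hfin.toFinset, fun ω => by rw [Set.Finite.mem_toFinset]; rfl⟩
  obtain ⟨η0, hη0, hη0'⟩ : ∃ η0 : ℝ, 0 < η0 ∧ ∀ ω ∈ R, η0 ≤ η ω := by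
    rcases R.eq_empty_or_nonempty with he | hne
    · refine ⟨1, one_pos, fun ω hω => ?_⟩
      rw [he] at hω
      exact absurd hω (Finset.notMem_empty _)
    · exact ⟨R.inf' hne η, (Finset.lt_inf'_iff _).mpr fun ω _ => hη ω,
        fun ω hω => Finset.inf'_le _ hω⟩
  refine ⟨T0 ∪ R.image vb, min ε0 η0, lt_min hε0 hη0, fun x hx hN hnear => ?_⟩
  obtain ⟨p0, p1, p2, p3, hn, he⟩ := hu x hx hN
  have h2C : ∀ y : C, y + y = 0 := fun y => by
    rw [← two_mul, ← map_ofNat (algebraMap L C) 2, h2L, map_zero, zero_mul]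
  have hjij : j * (i + 1) = i * j := by
    rw [mul_add, mul_one, hji, add_mul, one_mul, add_assoc, h2C, add_zero]
  have hsx : star x = x + algebraMap L C p1 := by
    rw [he, star_add, star_add, star_add, hS.star_algebraMapk, star_mul, star_mul, star_mul,
      star_mul, hS.star_algebraMapk, hS.star_algebraMapk, hS.star_algebraMapk, hsi, hsj, hjij,
      ← Algebra.commutes, ← Algebra.commutes, ← Algebra.commutes, mul_add, mul_one]
    abel
  have hp1 : Λ (jC x - 1) = p1 := by
    rw [← map_one jC, ← map_sub, hΛ, star_sub, star_one, hsx]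
    have e1 : x - 1 + (x + algebraMap L C p1 - 1) =
        algebraMap L C p1 + ((x - 1) + (x - 1)) := by abel
    rw [e1, h2C, add_zero, hl']
  refine hQ L ι δ β (jC i) (jC j) p0 p1 p2 p3 (jC x) ⟨⟨?_, ?_, ?_, ?_, ?_, ?_, hβ, ?_, ?_⟩, hn, ?_⟩
    ?_ ?_
  · intro c
    rw [hι, ← hst, hS.star_algebraMapk]
  · rw [← hst, hsi, map_add, map_one]
  · rw [← hst, hsj]
  · rw [← map_mul, hii, map_add, hι]
  · rw [← map_mul, hjj, hι]
  · rw [← map_mul, hji, map_mul, map_add, map_one]
  · intro c
    rw [hι, ← map_mul, Algebra.commutes, map_mul]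
  · intro c
    rw [hι, ← map_mul, Algebra.commutes, map_mul]
  · rw [he, map_add, map_add, map_add, map_mul, map_mul, map_mul, map_mul, hι, hι, hι, hι]
  · intro ω hω
    have hωR := (hR ω).mpr hω
    have h3 := hη' ω (jC x - 1) fun m => (hnear (vb ω) (Finset.mem_union_right _
      (Finset.mem_image_of_mem vb hωR)) m).trans_le ((min_le_right _ _).trans (hη0' ω hωR))
    rwa [hp1] at h3
  · intro v hv m
    exact (hnear v (Finset.mem_union_left _ hv) m).trans_le (min_le_left _ _)

end near

end Vale.Agent.P011.H867.C2
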