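import Vale.Agent.P011.H867.C2.NearTwo2
import Vale.Agent.P011.H169.C2.CentPu
import Vale.Agent.P011.H707.C2.Defs
import Vale.Agent.P011.H698.PlusOf

/-!
# The last step of the doubling in characteristic two

The elements of the centralizer which are close to one, from an element of the same reduced norm in
the subgroup. Twin of `H976/FF/AbOfYF.lean`, for rings, every degree.
-/

open Module

set_option linter.unusedSectionVars false

namespace Vale.Agent.P011.H867.C2

open Vale.Agent.P011.H738 (Place SUA Anis)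
open Vale.Agent.P011.H271 Vale.Agent.P011.H961
open Vale.Agent.P011.H271.S3 (Ab)
open Vale.Agent.P011.H698 (Sm Bd NearA)
open Vale.Agent.P011.H169.C2 (IsCent2 ImR exists_trace2 om2 exists_pu2)
open Vale.Agent.P011.H707.C2 (ImA AbAt2)
open Vale.Agent.P011.H706.C2 (HQ1F2)
open Vale.Agent.P011.W (HasNrd)

section est

variable {k A : Type} [Field k] [GFF k] [Ring A] [StarRing A] [Algebra k A] {N : ℕ}
  (B : Basis (Fin N) k A)

/-- Quotients of elements close to one, the denominator being unitary. -/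
theorem near_div2 (hst : ∀ (c : k) (x : A), star (c • x) = c • star x) (v : Place k) {ε : ℝ}
    (hε : 0 < ε) : ∃ η : ℝ, 0 < η ∧ ∀ x y : A, y * star y = 1 → Sm B v η (x - 1) →
      Sm B v η (y - 1) → Sm B v ε (x * star y - 1) := by
  obtain ⟨C, hC1, -, hm, hs, ho⟩ := H698.exists_const B hst
  have hC := hC1 v
  have hC0 : 0 < C v := by linarith
  obtain ⟨η, hη⟩ : ∃ η : ℝ, η = min 1 (ε / (C v * C v * 2)) := ⟨_, rfl⟩
  have hη0 : 0 < η := by rw [hη]; exact lt_min one_pos (by positivity)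
  refine ⟨η, hη0, fun x y hy hx1 hy1 => ?_⟩
  have e1 : x * star y - 1 = ((x - 1) - (y - 1)) * (1 + star (y - 1)) := by
    rw [sub_sub_sub_cancel_right, star_sub, star_one, add_sub_cancel, sub_mul, hy]
  have hb1 : Bd B v (C v) (1 + star (y - 1)) := by
    refine (ho v).add ((hs v η _ hη0.le hy1.bd).mono ?_)
    have : η ≤ 1 := by rw [hη]; exact min_le_left _ _
    nlinarith
  have hb2 : Bd B v η ((x - 1) - (y - 1)) := hx1.bd.sub hy1.bd
  have hb3 := hm v _ _ _ _ hη0.le hC0.le hb2 hb1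
  rw [e1]
  refine hb3.sm ?_
  have h1 : η ≤ ε / (C v * C v * 2) := by rw [hη]; exact min_le_right _ _
  have h2 : C v * η * C v ≤ ε / 2 := by
    calc C v * η * C v = C v * C v * η := by ring
      _ ≤ C v * C v * (ε / (C v * C v * 2)) := mul_le_mul_of_nonneg_left h1 (by positivity)
      _ = ε / 2 := by field_simp
  linarith

/-- Finitely many places. -/
theorem near_divs2 (hst : ∀ (c : k) (x : A), star (c • x) = c • star x) (S : Finset (Place k))
    {ε : ℝ} (hε : 0 < ε) : ∃ η : ℝ, 0 < η ∧ ∀ x y : A, y * star y = 1 →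
      (∀ v ∈ S, Sm B v η (x - 1)) → (∀ v ∈ S, Sm B v η (y - 1)) →
      ∀ v ∈ S, Sm B v ε (x * star y - 1) := by
  choose η hη h using fun v : Place k => near_div2 B hst v hε
  obtain ⟨η0, hη0, hη0'⟩ : ∃ η0 : ℝ, 0 < η0 ∧ ∀ v ∈ S, η0 ≤ η v := by
    rcases S.eq_empty_or_nonempty with he | hne
    · refine ⟨1, one_pos, fun v hv => ?_⟩
      rw [he] at hv
      exact absurd hv (Finset.notMem_empty _)
    · exact ⟨S.inf' hne η, (Finset.lt_inf'_iff _).mpr fun v _ => hη v,
        fun v hv => Finset.inf'_le _ hv⟩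
  exact ⟨η0, hη0, fun x y hy hx1 hy1 v hv => h v x y hy ((hx1 v hv).mono (hη0' v hv))
    ((hy1 v hv).mono (hη0' v hv))⟩

end est

section last

variable {k K A L K' C : Type} [Field k] [GFF k] [Field K] [Ring A] [StarRing A]
  [Algebra k K] [Algebra k A] [Algebra K A] [IsScalarTower k K A] [Field L] [GFF L] [Field K']
  [StarRing K'] [DivisionRing C] [StarRing C] [Algebra k L] [Algebra K K'] [Algebra L K']
  [Algebra L C] [Algebra K' C] [IsScalarTower L K' C] {t : A} {a : k} {T : L} {j : C →+* A}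
  {m n N : ℕ} {Ω : Type} [Field Ω] [Algebra K Ω]

/-- **The last step of the doubling.** `R` is the set of the reduced norms which occur. -/
theorem abAt_last2 (hSC : SetG L K' C) (hdC : finrank K' C = m ^ 2) (h : IsCent2 k K A L K' C t a T j)
    (hst : ∀ (c : k) (x : A), star (c • x) = c • star x)
    (f : A →ₐ[K] Matrix (Fin n) (Fin n) Ω) (B : Basis (Fin N) k A) (Q : Subgroup (SUA f))
    (hsmall : ∃ (S : Finset (Place k)) (η : ℝ), 0 < η ∧ ∀ z : C, z * star z = 1 →
      HasNrd K' m z 1 → (∀ v ∈ S, Sm B v η (j z - 1)) → j z ∈ ImR Q) (R : K' → Prop)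
    (hpu : ∀ x : C, x * star x = 1 → (f (j x)).det = 1 → ∃ ν, R ν ∧ HasNrd K' m x ν)
    (hY : ∀ ε : ℝ, 0 < ε → ∀ S0 : Finset (Place k), ∃ S : Finset (Place k), ∃ η : ℝ, 0 < η ∧
      ∀ (x : C) (ν : K'), R ν → x * star x = 1 → HasNrd K' m x ν →
        (∀ v ∈ S, Sm B v η (j x - 1)) →
        ∃ y : C, y * star y = 1 ∧ HasNrd K' m y ν ∧ j y ∈ ImR Q ∧
          ∀ v ∈ S0, Sm B v ε (j y - 1)) :
    ∃ S : Finset (Place k), ∃ ε : ℝ, 0 < ε ∧ ∀ e : A, e * t = t * e → star e * e = 1 →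
      (f e).det = 1 → (∀ v ∈ S, Sm B v ε (e - 1)) → e ∈ ImR Q := by
  classical
  have i3 := hSC.fin
  have i4 := hSC.cen
  obtain ⟨S0, η0, hη0, hs⟩ := hsmall
  obtain ⟨η1, hη1, hd⟩ := near_divs2 B hst S0 hη0
  obtain ⟨S, η, hη, hy⟩ := hY η1 hη1 S0
  refine ⟨S ∪ S0, min η η1, lt_min hη hη1, ?_⟩
  intro e het hestar hedet hnear
  obtain ⟨x, rfl⟩ := (h.range e).mp het
  have hx0' : star x * x = 1 := by
    apply h.inj
    rw [map_mul, h.star, map_one]
    exact hestar
  have hx1 : x * star x = 1 := mul_eq_one_comm.mp hx0'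
  obtain ⟨ν, hν, hN⟩ := hpu x hx1 hedet
  obtain ⟨y, hy1, hy2, hy3, hy4⟩ := hy x ν hν hx1 hN fun v hv =>
    (hnear v (Finset.mem_union_left _ hv)).mono (min_le_left _ _)
  have hy0 : y ≠ 0 := left_ne_zero_of_mul_eq_one hy1
  have hx0 : x ≠ 0 := left_ne_zero_of_mul_eq_one hx1
  have hone : HasNrd K' m (1 : C) 1 := fun Ω _ _ f => by
    rw [map_one, map_one, Matrix.det_one]
  have hyi : star y = y⁻¹ := eq_inv_of_mul_eq_one_right hy1
  have hz : j (x * star y) ∈ ImR Q := by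
    refine hs _ ?_ ?_ ?_
    · rw [star_mul, star_star, mul_assoc, ← mul_assoc (star y), mul_eq_one_comm.mp hy1, one_mul,
        hx1]
    · have h2 := hN.mul (hy2.inv hy0)
      have hν0 : ν ≠ 0 := by
        rintro rfl
        have h3 := hN.mul (hN.inv hx0)
        rw [mul_inv_cancel₀ hx0, zero_mul] at h3
        exact one_ne_zero (W.HasNrd.unique hdC hone h3)
      rw [mul_inv_cancel₀ hν0] at h2
      rwa [hyi]
    · intro v hv
      rw [map_mul, h.star]
      refine hd (j x) (j y) ?_ (fun w hw => ?_) (fun w hw => hy4 w hw) v hv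
      · rw [← h.star, ← map_mul, hy1, map_one]
      · exact (hnear w (Finset.mem_union_right _ hw)).mono (min_le_right _ _)
  obtain ⟨gz, hgz, hgze⟩ := hz
  obtain ⟨gy, hgy, hgye⟩ := hy3
  refine ⟨gz * gy, Q.mul_mem hgz hgy, ?_⟩
  change ((gz : Aˣ) : A) * ((gy : Aˣ) : A) = _
  rw [hgze, hgye, ← map_mul, hyi, inv_mul_cancel_right₀ hy0]

/-- **Degree two**: the base of the doubling. -/
theorem small_two2 (h2 : (2 : k) = 0) (hSC : SetG L K' C) (hdC : finrank K' C = 2 ^ 2)
    (h : IsCent2 k K A L K' C t a T j) (B : Basis (Fin N) k A) {Q : Set A} {T0 : Finset (Place k)}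
    {ε0 : ℝ} (hε0 : 0 < ε0) (hQ : HQ1F2 k B T0 ε0 Q) :
    ∃ (S : Finset (Place k)) (η : ℝ), 0 < η ∧ ∀ z : C, z * star z = 1 →
      HasNrd K' 2 z 1 → (∀ v ∈ S, Sm B v η (j z - 1)) → j z ∈ Q :=
  near_two2 h2 hSC hdC B j h.inj h.star h.jk hε0 hQ

variable [Infinite K] [Algebra.IsCentral K A] [IsSimpleRing A] {M : ℕ} {Ω' : Type} [Field Ω']
  [Algebra K' Ω']

/-- **All degrees**: from the congruence property of the centralizer. -/
theorem small_near2 (hSC : SetG L K' C) (hm : 0 < m) (hn : n = 2 * m)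
    (hA : finrank K A = n ^ 2) (hdC : finrank K' C = m ^ 2)
    (h : IsCent2 k K A L K' C t a T j) (f : A →ₐ[K] Matrix (Fin n) (Fin n) Ω)
    (g : C →ₐ[K'] Matrix (Fin m) (Fin m) Ω') (B : Basis (Fin N) k A) (B' : Basis (Fin M) L C)
    (Q : Subgroup (SUA f)) [Q.Normal] (hi : Q.index ≠ 0)
    (hMP : ∀ N' : Subgroup (SUA g), N'.Normal → N'.index ≠ 0 → NearA L K' g B' N') :
    ∃ (S : Finset (Place k)) (η : ℝ), 0 < η ∧ ∀ z : C, z * star z = 1 →
      HasNrd K' m z 1 → (∀ v ∈ S, Sm B v η (j z - 1)) → j z ∈ ImR Q := by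
  classical
  have i3 := hSC.fin
  have i4 := hSC.cen
  obtain ⟨N', hN'n, hN'i, -, hN'⟩ := exists_trace2 f g h hm hn hA hdC Q hi
  obtain ⟨T', -, η', hη', hPF⟩ := hMP N' hN'n hN'i
  -- linear maps
  let algC : Algebra k C := ((algebraMap L C).comp (algebraMap k L)).toAlgebra' fun c x =>
    Algebra.commutes _ _
  have tow : IsScalarTower k L C := IsScalarTower.of_algebraMap_eq fun _ => rfl
  let jl : C →ₗ[k] A :=
    { toFun := j
      map_add' := map_add j
      map_smul' := fun c x => by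
        rw [RingHom.id_apply, Algebra.smul_def, Algebra.smul_def, map_mul]
        exact congrArg (· * j x) (h.jk c) }
  obtain ⟨r, hr⟩ := jl.exists_leftInverse_of_injective (LinearMap.ker_eq_bot.mpr h.inj)
  have hr' : ∀ x : C, r (j x) = x := fun x => LinearMap.congr_fun hr x
  have hfL : FiniteDimensional k L := Module.finite_of_finrank_pos (by rw [h.rkL]; norm_num)
  have hbel : ∀ ω : Place L, ∃ v : Place k, Ab ω v := fun ω => Hey.H63.exists_below ω
  choose vb hvb using hbel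
  choose η hη hη2 using fun (ω : Place L) (i : Fin M) =>
    near_linSm B (((B'.coord i).restrictScalars k).comp r) (hvb ω) hη'
  obtain ⟨η0, hη0, hη0'⟩ : ∃ η0 : ℝ, 0 < η0 ∧ ∀ ω ∈ T', ∀ i, η0 ≤ η ω i := by
    have h1 : ∀ ω, ∃ δ : ℝ, 0 < δ ∧ ∀ i, δ ≤ η ω i := by
      intro ω
      rcases isEmpty_or_nonempty (Fin M) with he | hne
      · exact ⟨1, one_pos, fun i => he.elim i⟩
      · exact ⟨Finset.univ.inf' Finset.univ_nonempty (η ω), (Finset.lt_inf'_iff _).mpr
          fun i _ => hη ω i, fun i => Finset.inf'_le _ (Finset.mem_univ i)⟩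
    choose δ hδ hδ' using h1
    rcases T'.eq_empty_or_nonempty with he | hne
    · refine ⟨1, one_pos, fun ω hω => ?_⟩
      rw [he] at hω
      exact absurd hω (Finset.notMem_empty _)
    · exact ⟨T'.inf' hne δ, (Finset.lt_inf'_iff _).mpr fun ω _ => hδ ω,
        fun ω hω i => (Finset.inf'_le _ hω).trans (hδ' ω i)⟩
  refine ⟨T'.image vb, η0, hη0, fun z hz hN hnear => ?_⟩
  have hz0 : z ≠ 0 := left_ne_zero_of_mul_eq_one hz
  have hdet : (g z).det = 1 := by
    have h3 := hN _ g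
    rwa [map_one] at h3
  have hzN : (⟨Units.mk0 z hz0, hz, hdet⟩ : SUA g) ∈ N' := by
    refine hPF _ fun ω hω i => ?_
    have h3 := hη2 ω i (j z - 1) fun l => (hnear (vb ω) (Finset.mem_image_of_mem vb hω) l).trans_le
      (hη0' ω hω i)
    have h4 : (((B'.coord i).restrictScalars k).comp r) (j z - 1) = B'.repr (z - 1) i := by
      rw [← map_one j, ← map_sub, LinearMap.comp_apply, hr']
      rfl
    rw [h4] at h3
    exact h3
  exact ((hN' z).mp ⟨_, hzN, rfl⟩).2.2

end last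

section final

variable {k K A L K' C : Type} [Field k] [GFF k] [Field K] [StarRing K] [Ring A] [StarRing A]
  [Algebra k K] [Algebra k A] [Algebra K A] [IsScalarTower k K A] [StarModule K A] [Field L]
  [GFF L] [Field K'] [StarRing K'] [DivisionRing C] [StarRing C] [Algebra k L] [Algebra K K']
  [Algebra L K'] [Algebra L C] [Algebra K' C] [IsScalarTower L K' C] {t : A} {a : k} {T : L}
  {j : C →+* A} {m n N : ℕ} {Ω : Type} [Field Ω] [Algebra K Ω]

theorem anis_infinite (_ : Anis k K A n) : Infinite K := by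
  have : Infinite k := Vale.Agent.P011.Hey.gff_infinite k
  exact Infinite.of_injective _ (algebraMap k K).injective

theorem anis_star_smulk (hA : Anis k K A n) (c : k) (x : A) : star (c • x) = c • star x := by
  rw [← algebraMap_smul K c x, star_smul, (hA.fixed _).mpr ⟨c, rfl⟩, algebraMap_smul]

/-- **The last step of the doubling**, from the elements of norm one of the centralizer. -/
theorem abAt_of_y2 (h2 : (2 : k) = 0) (hA : Anis k K A n) (hm : 0 < m) (hn : n = 2 * m)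
    (hSC : SetG L K' C) (hdC : finrank K' C = m ^ 2) (h : IsCent2 k K A L K' C t a T j) {κ : K}
    {ν : k} (hκ : κ + star κ = 1) (hν : κ * star κ = algebraMap k K ν)
    (f : A →ₐ[K] Matrix (Fin n) (Fin n) Ω) (B : Basis (Fin N) k A) (Q : Subgroup (SUA f))
    (hsmall : ∃ (S : Finset (Place k)) (η : ℝ), 0 < η ∧ ∀ z : C, z * star z = 1 →
      HasNrd K' m z 1 → (∀ v ∈ S, Sm B v η (j z - 1)) → j z ∈ ImA Q)
    (hY : ∀ ε : ℝ, 0 < ε → ∀ S0 : Finset (Place k), ∃ S : Finset (Place k), ∃ η : ℝ, 0 < η ∧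
      ∀ (x : C) (p u : k), x * star x = 1 →
        HasNrd K' m x (algebraMap K K' (algebraMap k K p) +
          algebraMap K K' (algebraMap k K u) * om2 K' κ T) →
        p ^ 2 + p * u + (a + ν) * u ^ 2 = 1 → (∀ v ∈ S, Sm B v η (j x - 1)) →
        ∃ y : C, y * star y = 1 ∧ HasNrd K' m y (algebraMap K K' (algebraMap k K p) +
          algebraMap K K' (algebraMap k K u) * om2 K' κ T) ∧
          j y ∈ ImA Q ∧ ∀ v ∈ S0, Sm B v ε (j y - 1)) :
    AbAt2 B f (ImA Q) t := by
  have i1 := anis_infinite hA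
  have i2 := hA.central
  have i3 := hA.simple
  refine abAt_last2 hSC hdC h (anis_star_smulk hA) f B Q hsmall
    (fun c => ∃ p u : k, c = algebraMap K K' (algebraMap k K p) +
      algebraMap K K' (algebraMap k K u) * om2 K' κ T ∧ p ^ 2 + p * u + (a + ν) * u ^ 2 = 1) ?_ ?_
  · intro x hx hdet
    obtain ⟨p, u, h3, h4⟩ := exists_pu2 h2 hA.fixed hSC h hm hn hA.finrank_eq hdC f hκ hν hx hdet
    exact ⟨_, ⟨p, u, rfl, h4⟩, h3⟩
  · intro ε hε S0
    obtain ⟨S, η, hη, h3⟩ := hY ε hε S0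
    refine ⟨S, η, hη, ?_⟩
    rintro x _ ⟨p, u, rfl, h4⟩ hx hN hnear
    exact h3 x p u hx hN h4 hnear

/-- **All degrees**: from the congruence property of the centralizer. -/
theorem abAt_of_y2near (h2 : (2 : k) = 0) (hA : Anis k K A n) (hm : 0 < m) (hn : n = 2 * m)
    (hSC : SetG L K' C) (hdC : finrank K' C = m ^ 2) (h : IsCent2 k K A L K' C t a T j) {κ : K}
    {ν : k} (hκ : κ + star κ = 1) (hν : κ * star κ = algebraMap k K ν)
    (f : A →ₐ[K] Matrix (Fin n) (Fin n) Ω) (B : Basis (Fin N) k A) (Q : Subgroup (SUA f))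
    [Q.Normal] (hi : Q.index ≠ 0) {M : ℕ} {Ω' : Type} [Field Ω'] [Algebra K' Ω']
    (g : C →ₐ[K'] Matrix (Fin m) (Fin m) Ω') (B' : Basis (Fin M) L C)
    (hMP : ∀ N' : Subgroup (SUA g), N'.Normal → N'.index ≠ 0 → NearA L K' g B' N')
    (hY : ∀ ε : ℝ, 0 < ε → ∀ S0 : Finset (Place k), ∃ S : Finset (Place k), ∃ η : ℝ, 0 < η ∧
      ∀ (x : C) (p u : k), x * star x = 1 →
        HasNrd K' m x (algebraMap K K' (algebraMap k K p) +
          algebraMap K K' (algebraMap k K u) * om2 K' κ T) →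
        p ^ 2 + p * u + (a + ν) * u ^ 2 = 1 → (∀ v ∈ S, Sm B v η (j x - 1)) →
        ∃ y : C, y * star y = 1 ∧ HasNrd K' m y (algebraMap K K' (algebraMap k K p) +
          algebraMap K K' (algebraMap k K u) * om2 K' κ T) ∧
          j y ∈ ImA Q ∧ ∀ v ∈ S0, Sm B v ε (j y - 1)) :
    AbAt2 B f (ImA Q) t := by
  have i1 := anis_infinite hA
  have i2 := hA.central
  have i3 := hA.simple
  exact abAt_of_y2 h2 hA hm hn hSC hdC h hκ hν f B Q
    (small_near2 hSC hm hn hA.finrank_eq hdC h f g B B' Q hi hMP) hY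

/-- **Degree four**: from the elements of norm one of quaternion algebras. -/
theorem abAt_of_y2two (h2 : (2 : k) = 0) (hA : Anis k K A n) (hn : n = 2 * 2)
    (hSC : SetG L K' C) (hdC : finrank K' C = 2 ^ 2) (h : IsCent2 k K A L K' C t a T j) {κ : K}
    {ν : k} (hκ : κ + star κ = 1) (hν : κ * star κ = algebraMap k K ν)
    (f : A →ₐ[K] Matrix (Fin n) (Fin n) Ω) (B : Basis (Fin N) k A) (Q : Subgroup (SUA f))
    {T0 : Finset (Place k)} {ε0 : ℝ} (hε0 : 0 < ε0) (hQ : HQ1F2 k B T0 ε0 (ImA Q))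
    (hY : ∀ ε : ℝ, 0 < ε → ∀ S0 : Finset (Place k), ∃ S : Finset (Place k), ∃ η : ℝ, 0 < η ∧
      ∀ (x : C) (p u : k), x * star x = 1 →
        HasNrd K' 2 x (algebraMap K K' (algebraMap k K p) +
          algebraMap K K' (algebraMap k K u) * om2 K' κ T) →
        p ^ 2 + p * u + (a + ν) * u ^ 2 = 1 → (∀ v ∈ S, Sm B v η (j x - 1)) →
        ∃ y : C, y * star y = 1 ∧ HasNrd K' 2 y (algebraMap K K' (algebraMap k K p) +
          algebraMap K K' (algebraMap k K u) * om2 K' κ T) ∧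
          j y ∈ ImA Q ∧ ∀ v ∈ S0, Sm B v ε (j y - 1)) :
    AbAt2 B f (ImA Q) t :=
  abAt_of_y2 h2 hA two_pos hn hSC hdC h hκ hν f B Q (small_two2 h2 hSC hdC h B hε0 hQ) hY

end final

end Vale.Agent.P011.H867.C2
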