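import Vale.Agent.P011.H738.Inv2
import Vale.Agent.P011.H961.SetG
import Vale.Agent.P011.W.Nrd

/-!
# Quaternion division algebras with an involution of the second kind, characteristic two

The elements of norm one fixed up to inversion by the involution and of reduced norm one form the
norm one group of a quaternion algebra over the fixed field, whose canonical involution is the
given one.
-/

open Module

set_option linter.unusedSectionVars false

namespace Vale.Agent.P011.H867.C2

open Vale.Agent.P011.H738 Vale.Agent.P011.H961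

section ring

variable {R : Type} [Ring R]

/-- The derivation `x ↦ i x + x i` is idempotent. -/
theorem der_idem (h2 : ∀ x : R, x + x = 0) {i δ : R} (hδ : ∀ x : R, δ * x = x * δ)
    (hi : i * i = i + δ) (x : R) : (i * x + x * i) * i = (i + 1) * (i * x + x * i) := by
  have e1 : (i * x + x * i) * i = i * x * i + x * (i * i) := by noncomm_ring
  have e2 : (i + 1) * (i * x + x * i) = (i * i) * x + i * x * i + i * x + x * i := by
    noncomm_ring
  rw [e1, e2, hi, mul_add, add_mul, hδ]
  have e3 : i * x + x * δ + i * x * i + i * x + x * i =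
      i * x * i + (x * i + x * δ) + (i * x + i * x) := by abel
  rw [e3, h2, add_zero]

/-- The square of an element of a quaternion algebra. -/
theorem sq_quat {L : Type} [Field L] [Algebra L R] (h2 : (2 : L) = 0) {i j : R} {δ β : L}
    (hii : i * i = i + algebraMap L R δ) (hjj : j * j = algebraMap L R β)
    (hji : j * i = (i + 1) * j) (p0 p1 p2 p3 : L) {u : R}
    (hu : u = algebraMap L R p0 + algebraMap L R p1 * i + algebraMap L R p2 * j +
      algebraMap L R p3 * (i * j)) :
    u * u = algebraMap L R p1 * u + algebraMap L R ((p0 ^ 2 + p0 * p1 + δ * p1 ^ 2) +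
      β * (p2 ^ 2 + p2 * p3 + δ * p3 ^ 2)) := by
  have h2' : ∀ x : R, x + x = 0 := fun x => by
    rw [← two_mul, ← map_ofNat (algebraMap L R) 2, h2, map_zero, zero_mul]
  rw [Algebra.algebraMap_eq_smul_one] at hii hjj
  have e1 : j * i = i * j + j := by rw [hji, add_mul, one_mul]
  have e2 : i * (i * j) = i * j + δ • j := by
    rw [← mul_assoc, hii, add_mul, smul_mul_assoc, one_mul]
  have e3 : j * (i * j) = β • i + β • 1 := by
    rw [← mul_assoc, e1, add_mul, mul_assoc, hjj, mul_smul_comm, mul_one]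
  have e4 : i * j * i = δ • j := by
    rw [mul_assoc, e1, mul_add, e2, add_right_comm, h2', zero_add]
  have e5 : i * j * j = β • i := by rw [mul_assoc, hjj, mul_smul_comm, mul_one]
  have e6 : i * j * (i * j) = (β * δ) • 1 := by
    rw [mul_assoc, e3, mul_add, mul_smul_comm, hii, mul_smul_comm, mul_one, smul_add,
      add_right_comm, h2', zero_add, smul_smul]
  rw [hu]
  simp only [Algebra.algebraMap_eq_smul_one, smul_mul_assoc, one_mul, add_mul, mul_add,
    mul_smul_comm, mul_one, hii, hjj, e1, e2, e3, e4, e5, e6]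
  match_scalars
  · linear_combination (-p0 * p1) * h2
  · linear_combination (p0 * p1 + β * p2 * p3) * h2
  · linear_combination (p0 * p2 + δ * p1 * p3) * h2
  · linear_combination (p0 * p3 + p1 * p2) * h2

end ring

section div

variable {R : Type} [DivisionRing R] {L : Type} [Field L] [Algebra L R]

/-- The generators of a quaternion algebra are independent. -/
theorem indep2 (h2 : (2 : L) = 0) {i j : R} (hji : j * i = (i + 1) * j) (hj : j ≠ 0)
    {p0 p1 p2 p3 : L} (h : algebraMap L R p0 + algebraMap L R p1 * i + algebraMap L R p2 * j +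
      algebraMap L R p3 * (i * j) = 0) : p0 = 0 ∧ p1 = 0 ∧ p2 = 0 ∧ p3 = 0 := by
  have h2' : ∀ x : R, x + x = 0 := fun x => by
    rw [← two_mul, ← map_ofNat (algebraMap L R) 2, h2, map_zero, zero_mul]
  have key : ∀ a b : L, algebraMap L R a + algebraMap L R b * i = 0 → a = 0 ∧ b = 0 := by
    intro a b hab
    by_cases hb : b = 0
    · rw [hb, map_zero, zero_mul, add_zero] at hab
      exact ⟨(map_eq_zero _).mp hab, hb⟩
    · exfalso
      have e1 : i = algebraMap L R (-(a / b)) := by
        rw [map_neg, div_eq_mul_inv, mul_comm a, map_mul, eq_neg_of_add_eq_zero_left hab, mul_neg,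
          neg_neg, ← mul_assoc, ← map_mul, inv_mul_cancel₀ hb, map_one, one_mul]
      have e2 : j * i = i * j := by rw [e1, Algebra.commutes]
      rw [hji, add_mul, one_mul] at e2
      exact hj (left_eq_add.mp e2.symm)
  obtain ⟨A, hA⟩ : ∃ A : R, A = algebraMap L R p0 + algebraMap L R p1 * i := ⟨_, rfl⟩
  obtain ⟨E, hE⟩ : ∃ E : R, E = algebraMap L R p2 + algebraMap L R p3 * i := ⟨_, rfl⟩
  have hAi : i * A = A * i := by
    rw [hA, mul_add, add_mul, ← Algebra.commutes p0 i, ← mul_assoc, ← Algebra.commutes p1 i]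
  have hEi : i * E = E * i := by
    rw [hE, mul_add, add_mul, ← Algebra.commutes p2 i, ← mul_assoc, ← Algebra.commutes p3 i]
  have h1 : A + E * j = 0 := by
    rw [hA, hE, add_mul, mul_assoc, ← add_assoc]
    exact h
  have h3 : i * (A + E * j) + (A + E * j) * i = E * j := by
    have e1 : i * (A + E * j) + (A + E * j) * i = i * A + A * i + (i * E * j + E * (j * i)) := by
      noncomm_ring
    rw [e1, hji, hAi, h2', zero_add, hEi, ← mul_assoc, mul_add, mul_one, add_mul, ← add_assoc,
      h2', zero_add]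
  rw [h1, mul_zero, zero_mul, add_zero] at h3
  have hE0 : E = 0 := (mul_eq_zero.mp h3.symm).resolve_right hj
  rw [hE0, zero_mul, add_zero] at h1
  rw [hA] at h1
  rw [hE] at hE0
  exact ⟨(key _ _ h1).1, (key _ _ h1).2, (key _ _ hE0).1, (key _ _ hE0).2⟩

end div

variable {L K' C : Type} [Field L] [Field K'] [StarRing K'] [DivisionRing C] [StarRing C]
  [Algebra L K'] [Algebra L C] [Algebra K' C] [IsScalarTower L K' C]

theorem exists_noncomm2 (hS : SetG L K' C) (hd : finrank K' C = 2 ^ 2) :
    ∃ x y : C, x * y ≠ y * x := by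
  by_contra hcon
  push Not at hcon
  have hc := hS.cen
  have h1 : ∀ x : C, ∃ c : K', algebraMap K' C c = x := by
    intro x
    have h2 : x ∈ Subalgebra.center K' C := Subalgebra.mem_center_iff.mpr fun b => hcon b x
    rw [Algebra.IsCentral.center_eq_bot] at h2
    exact Algebra.mem_bot.mp h2
  have h3 : finrank K' C ≤ 1 := finrank_le_one (1 : C) fun w => by
    obtain ⟨c, hc⟩ := h1 w
    exact ⟨c, by rw [← hc, Algebra.algebraMap_eq_smul_one]⟩
  rw [hd] at h3
  norm_num at h3

/-- **The quaternion algebra over the fixed field.** -/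
theorem frame2 (hS : SetG L K' C) (hd : finrank K' C = 2 ^ 2) (h2 : (2 : L) = 0) {Ω : Type}
    [Field Ω] [Algebra K' Ω] (s : C →ₐ[K'] Matrix (Fin 2) (Fin 2) Ω) :
    ∃ (δ β : L) (i j : C), β ≠ 0 ∧ star i = i + 1 ∧ star j = j ∧
      i * i = i + algebraMap L C δ ∧ j * j = algebraMap L C β ∧ j * i = (i + 1) * j ∧
      ∀ u : C, u * star u = 1 → (s u).det = 1 → ∃ p0 p1 p2 p3 : L,
        (p0 ^ 2 + p0 * p1 + δ * p1 ^ 2) + β * (p2 ^ 2 + p2 * p3 + δ * p3 ^ 2) = 1 ∧
        u = algebraMap L C p0 + algebraMap L C p1 * i + algebraMap L C p2 * j +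
          algebraMap L C p3 * (i * j) := by
  have i1 := hS.starModule
  have i2 := hS.fin
  have i3 := hS.cen
  have h2C : ∀ x : C, x + x = 0 := fun x => by
    rw [← two_mul, ← map_ofNat (algebraMap L C) 2, h2, map_zero, zero_mul]
  have hneg : ∀ x : C, -x = x := fun x => (eq_neg_of_add_eq_zero_left (h2C x)).symm
  have hsub : ∀ x y : C, x - y = x + y := fun x y => by rw [sub_eq_add_neg, hneg]
  have h2K : ∀ x : K', x + x = 0 := fun x => by
    rw [← two_mul, ← map_ofNat (algebraMap L K') 2, h2, map_zero, zero_mul]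
  -- notation
  obtain ⟨Q, hQ⟩ : ∃ Q : Subalgebra L C, Q = Q0 s hd hS.fix := ⟨_, rfl⟩
  have hcomL : ∀ (c : L) (x : C), algebraMap L C c * x = x * algebraMap L C c := fun c x =>
    Algebra.commutes c x
  have hstL : ∀ c : L, star (algebraMap L C c) = algebraMap L C c := hS.star_algebraMapk
  have htr : ∀ x ∈ Q, x + star x = algebraMap K' C (trd s hd x) := by
    intro x hx
    rw [hQ, mem_Q0] at hx
    rw [hx, gam]
    abel
  have hquad : ∀ x ∈ Q, ∃ τ ν : L, x + star x = algebraMap L C τ ∧
      x * star x = algebraMap L C ν := by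
    intro x hx
    rw [hQ] at hx
    exact Q0_quad s hd hS.fix hx
  obtain ⟨θ, hθ⟩ := hS.star_ne
  -- the reduced trace is not zero
  have ht1 : ∃ x : C, trd s hd x ≠ 0 := by
    by_contra hcon
    push Not at hcon
    have hsq : ∀ x : C, ∃ c : K', x * x = algebraMap K' C c := by
      intro x
      obtain ⟨ν, hν⟩ := exists_mul_gam s hd x
      rw [gam, hcon x, map_zero, zero_sub, mul_neg, hneg] at hν
      exact ⟨ν, hν⟩
    have hpol : ∀ x y : C, ∃ c : K', x * y + y * x = algebraMap K' C c := by
      intro x y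
      obtain ⟨c1, hc1⟩ := hsq (x + y)
      obtain ⟨c2, hc2⟩ := hsq x
      obtain ⟨c3, hc3⟩ := hsq y
      refine ⟨c1 - c2 - c3, ?_⟩
      rw [map_sub, map_sub, ← hc1, ← hc2, ← hc3]
      noncomm_ring
    obtain ⟨x, y, hxy⟩ := exists_noncomm2 hS hd
    obtain ⟨c, hc⟩ := hpol x y
    obtain ⟨c', hc'⟩ := hpol x (x * y)
    have hc0 : c ≠ 0 := by
      rintro rfl
      rw [map_zero] at hc
      exact hxy (by rw [eq_neg_of_add_eq_zero_left hc, hneg])
    have e1 : x * (x * y) + x * y * x = x * algebraMap K' C c := by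
      rw [← hc]
      noncomm_ring
    rw [e1] at hc'
    have e2 : x = algebraMap K' C (c' * c⁻¹) := by
      rw [map_mul, ← hc', mul_assoc, ← map_mul, mul_inv_cancel₀ hc0, map_one, mul_one]
    exact hxy (by rw [e2, Algebra.commutes])
  -- the element with trace one
  obtain ⟨i, hiQ, hi1⟩ : ∃ i ∈ Q, i + star i = 1 := by
    obtain ⟨x, hx⟩ := ht1
    obtain ⟨u, hu, hu0⟩ : ∃ u ∈ Q, trd s hd u ≠ 0 := by
      by_contra hcon
      push Not at hcon
      apply hx
      obtain ⟨u, hu, v, hv, he⟩ := Q0_gen s hd hS.fix hθ x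
      rw [he, trd_add, ← Algebra.smul_def, ← Algebra.smul_def, trd_smul, trd_smul,
        hcon u (by rw [hQ]; exact hu), hcon v (by rw [hQ]; exact hv), mul_zero, mul_zero, add_zero]
    obtain ⟨τ, ν, hτ, -⟩ := hquad u hu
    have hτ0 : τ ≠ 0 := by
      rintro rfl
      rw [htr u hu, map_zero] at hτ
      exact hu0 ((map_eq_zero _).mp hτ)
    refine ⟨algebraMap L C τ⁻¹ * u, Q.mul_mem (Q.algebraMap_mem _) hu, ?_⟩
    rw [star_mul, hstL, ← hcomL, ← mul_add, hτ, ← map_mul, inv_mul_cancel₀ hτ0, map_one]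
  have hsi : star i = i + 1 := by
    have h3 : star i = 1 - i := eq_sub_of_add_eq' hi1
    rw [h3, hsub, add_comm]
  obtain ⟨-, δ, -, hδ⟩ := hquad i hiQ
  have hii : i * i = i + algebraMap L C δ := by
    rw [hsi, mul_add, mul_one] at hδ
    rw [← hδ, add_comm (i * i), ← add_assoc, h2C, zero_add]
  -- an element of the fixed algebra which does not commute
  obtain ⟨x, hxQ, hxi⟩ : ∃ x ∈ Q, i * x ≠ x * i := by
    by_contra hcon
    push Not at hcon
    have hall : ∀ y : C, y * i = i * y := by
      intro y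
      obtain ⟨u, hu, v, hv, he⟩ := Q0_gen s hd hS.fix hθ y
      have hu' := hcon u (by rw [hQ]; exact hu)
      have hv' := hcon v (by rw [hQ]; exact hv)
      rw [he, add_mul, mul_add, mul_assoc, mul_assoc, ← hu', ← hv', ← mul_assoc, ← mul_assoc,
        ← mul_assoc, ← mul_assoc, Algebra.commutes _ i, Algebra.commutes _ i]
    have h4 : i ∈ Subalgebra.center K' C := Subalgebra.mem_center_iff.mpr hall
    rw [Algebra.IsCentral.center_eq_bot] at h4
    obtain ⟨c, hc⟩ := Algebra.mem_bot.mp h4
    have h5 := htr i hiQ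
    rw [hi1, ← hc, trd_alg, h2K, map_zero] at h5
    exact one_ne_zero h5
  obtain ⟨j, hj⟩ : ∃ j : C, j = i * x + x * i := ⟨_, rfl⟩
  have hjQ : j ∈ Q := by
    rw [hj]
    exact Q.add_mem (Q.mul_mem hiQ hxQ) (Q.mul_mem hxQ hiQ)
  have hj0 : j ≠ 0 := by
    intro h0
    rw [hj] at h0
    exact hxi (by rw [eq_neg_of_add_eq_zero_left h0, hneg])
  have hder : ∀ y : C, (i * y + y * i) * i = (i + 1) * (i * y + y * i) :=
    der_idem h2C (hcomL δ) hii
  have hji : j * i = (i + 1) * j := by rw [hj]; exact hder x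
  have hsj : star j = j := by
    obtain ⟨τ, -, hτ, -⟩ := hquad x hxQ
    have hsx : star x = x + algebraMap L C τ := by
      rw [eq_sub_of_add_eq' hτ, hsub, add_comm]
    rw [hj, star_add, star_mul, star_mul, hsi, hsx]
    have e1 : (x + algebraMap L C τ) * (i + 1) + (i + 1) * (x + algebraMap L C τ) =
        i * x + x * i + (x + x) + (algebraMap L C τ * i + i * algebraMap L C τ) +
          (algebraMap L C τ + algebraMap L C τ) := by noncomm_ring
    rw [e1, hcomL, h2C, h2C, h2C, add_zero, add_zero, add_zero]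
  obtain ⟨-, β, -, hβ⟩ := hquad j hjQ
  rw [hsj] at hβ
  have hβ0 : β ≠ 0 := by
    rintro rfl
    rw [map_zero] at hβ
    exact hj0 (mul_self_eq_zero.mp hβ)
  -- the centralizer of `i` in the fixed algebra
  have hcent : ∀ a ∈ Q, a * i = i * a → ∃ p q : L, a = algebraMap L C p + algebraMap L C q * i := by
    intro a ha hai
    obtain ⟨q, -, hq, -⟩ := hquad a ha
    obtain ⟨a', ha'⟩ : ∃ a' : C, a' = a + algebraMap L C q * i := ⟨_, rfl⟩
    have ha'Q : a' ∈ Q := by
      rw [ha']
      exact Q.add_mem ha (Q.mul_mem (Q.algebraMap_mem _) hiQ)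
    have hsa : star a' = a' := by
      rw [ha', star_add, star_mul, hstL, hsi, eq_sub_of_add_eq' hq, hsub, ← hcomL, mul_add,
        mul_one]
      have e1 : algebraMap L C q + a + (algebraMap L C q * i + algebraMap L C q) =
          a + algebraMap L C q * i + (algebraMap L C q + algebraMap L C q) := by abel
      rw [e1, h2C, add_zero]
    have ha'i : a' * i = i * a' := by
      rw [ha', add_mul, mul_add, hai, mul_assoc, ← mul_assoc i, ← hcomL, mul_assoc]
    obtain ⟨p, -, hp, -⟩ := hquad (a' * i) (Q.mul_mem ha'Q hiQ)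
    rw [star_mul, hsa, hsi, add_mul, one_mul, ha'i, ← add_assoc, h2C, zero_add] at hp
    refine ⟨p, q, ?_⟩
    rw [← hp, ha', add_assoc, h2C, add_zero]
  refine ⟨δ, β, i, j, hβ0, hsi, hsj, hii, hβ, hji, fun u hu hdet => ?_⟩
  -- `u` is in the fixed algebra
  have hu0 : u ≠ 0 := left_ne_zero_of_mul_eq_one hu
  have huQ : u ∈ Q := by
    rw [hQ, mem_Q0]
    have h6 : u * gam s hd u = 1 := by
      apply s.toRingHom.injective
      change s _ = s _
      rw [map_mul, s_gam, Matrix.mul_adjugate, hdet, one_smul, map_one]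
    exact mul_left_cancel₀ hu0 (hu.trans h6.symm)
  obtain ⟨Du, hDu⟩ : ∃ Du : C, Du = i * u + u * i := ⟨_, rfl⟩
  have hDQ : Du ∈ Q := by
    rw [hDu]
    exact Q.add_mem (Q.mul_mem hiQ huQ) (Q.mul_mem huQ hiQ)
  have hDi : Du * i = (i + 1) * Du := by rw [hDu]; exact hder u
  -- the first part
  obtain ⟨p0, p1, hp⟩ := hcent (u + Du) (Q.add_mem huQ hDQ) (by
    rw [add_mul, mul_add, hDi, add_mul, one_mul]
    have e1 : u * i + (i * Du + Du) = i * Du + (Du + u * i) := by abel
    rw [e1, hDu]
    have e2 : i * (i * u + u * i) + (i * u + u * i + u * i) =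
        i * u + i * (i * u + u * i) + (u * i + u * i) := by abel
    rw [e2, h2C, add_zero])
  -- the second part
  have hb : Du * j * i = i * (Du * j) := by
    rw [mul_assoc, hji, ← mul_assoc, mul_add, mul_one, hDi, add_mul i 1 Du, one_mul, add_assoc,
      h2C, add_zero, mul_assoc]
  obtain ⟨r2, r3, hr⟩ := hcent (Du * j) (Q.mul_mem hDQ hjQ) hb
  have hDe : Du = algebraMap L C (r2 / β) * j + algebraMap L C (r3 / β) * (i * j) := by
    have e1 : Du * algebraMap L C β = (algebraMap L C r2 + algebraMap L C r3 * i) * j := by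
      rw [← hβ, ← mul_assoc, hr]
    have e2 : Du = Du * algebraMap L C β * algebraMap L C β⁻¹ := by
      rw [mul_assoc, ← map_mul, mul_inv_cancel₀ hβ0, map_one, mul_one]
    rw [e2, e1, div_eq_mul_inv, div_eq_mul_inv, map_mul, map_mul, ← hcomL β⁻¹, add_mul, mul_add,
      ← mul_assoc, ← map_mul, mul_comm β⁻¹ r2, mul_assoc (algebraMap L C r3) i j, ← mul_assoc,
      ← map_mul, mul_comm β⁻¹ r3, map_mul, map_mul]
  have hue : u = algebraMap L C p0 + algebraMap L C p1 * i + algebraMap L C (r2 / β) * j +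
      algebraMap L C (r3 / β) * (i * j) := by
    rw [add_assoc (algebraMap L C p0 + algebraMap L C p1 * i), ← hDe, ← hp, add_assoc, h2C,
      add_zero]
  refine ⟨p0, p1, r2 / β, r3 / β, ?_, hue⟩
  -- the norm
  generalize r2 / β = p2 at hue
  generalize r3 / β = p3 at hue
  have hjij : j * (i + 1) = i * j := by
    rw [mul_add, mul_one, hji, add_mul, one_mul, add_assoc, h2C, add_zero]
  have hsu : star u = u + algebraMap L C p1 := by
    rw [hue, star_add, star_add, star_add, hstL, star_mul, star_mul, star_mul, star_mul, hstL,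
      hstL, hstL, hsi, hsj, hjij, ← hcomL, ← hcomL, ← hcomL, mul_add, mul_one]
    abel
  have hu2 := sq_quat h2 hii hβ hji p0 p1 p2 p3 hue
  apply (algebraMap L C).injective
  rw [map_one, ← hu, hsu, mul_add u u, hu2, ← hcomL]
  generalize algebraMap L C p1 * u = z
  generalize algebraMap L C ((p0 ^ 2 + p0 * p1 + δ * p1 ^ 2) +
    β * (p2 ^ 2 + p2 * p3 + δ * p3 ^ 2)) = w
  rw [add_right_comm, h2C, zero_add]

end Vale.Agent.P011.H867.C2
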